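import Vale.Agent.P345.Compile.Reduce
import Vale.Agent.P345.Compile.Flatten

/-!
# P345 step 1: r.e. sets are halting sets of register machines
-/

namespace Vale.Agent.P345

open Function

/-- Every r.e. predicate is the halting set of a register machine. -/
theorem compile : CompileSpec := by
  intro n S hS
  obtain ⟨g, hg, hSg⟩ := REPred.exists_primrec' hS
  obtain ⟨g0, hg0⟩ := computes_of_primrec' hg (Fin.cons n fun i => (i : ℕ)) (n + 1) (n + 2)
    (fun i => by
      refine Fin.cases ?_ (fun j => ?_) i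
      · simp
      · simp; omega)
    (by omega)
    (fun i => by
      refine Fin.cases ?_ (fun j => ?_) i
      · simp
      · simp; omega)
  let lp : Cmd := .loop (n + 1) (.seq (.inc n) g0)
  let p : Cmd := .seq g0 lp
  refine ⟨p.toProgram n, fun a => ?_⟩
  rw [hSg, Cmd.halts_iff]
  let G : ℕ → ℕ := fun k => g (k ::ᵥ List.Vector.ofFn a)
  let K : ℕ → (ℕ → ℕ) → Prop := fun k σ => σ n = k ∧ ∀ i : Fin n, σ i = a i
  let J : ℕ → (ℕ → ℕ) → Prop := fun k σ => K k σ ∧ σ (n + 1) = G k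
  -- one evaluation of `g`
  have eval : ∀ k σ, K k σ → ∃ σ', Exec g0 σ σ' ∧ J k σ' := fun k σ ⟨hk, ha⟩ => by
    obtain ⟨σ', e, v, keep⟩ := hg0 σ
    refine ⟨σ', e, ⟨(keep n (by omega) (by omega)).trans hk, fun i => ?_⟩, ?_⟩
    · exact (keep i (by omega) (by omega)).trans (ha i)
    · rw [v]
      show g _ = g _
      congr 1
      simp [List.Vector.ofFn, hk, ha]
  -- the body of the search loop
  have body : ∀ k σ, J k σ → ∀ v, ∃ σ', Exec (.seq (.inc n) g0) (update σ (n + 1) v) σ' ∧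
      J (k + 1) σ' := fun k σ ⟨⟨hk, ha⟩, _⟩ v => by
    obtain ⟨σ', e, hJ⟩ := eval (k + 1)
      (update (update σ (n + 1) v) n (update σ (n + 1) v n + 1))
      ⟨by simp [hk],
        fun i => by
          rw [update_of_ne i.2.ne, update_of_ne (by omega), ha i]⟩
    exact ⟨σ', .seq (.inc _ _) e, hJ⟩
  obtain ⟨σ₀, e₀, hJ₀⟩ := eval 0 (Cmd.initReg a) ⟨by simp [Cmd.initReg], fun i => by
    simp [Cmd.initReg]⟩
  have hp : p.Placed p.code 0 p.size := p.placed_code
  have hlp : lp.Placed p.code (0 + g0.size) p.size := hp.2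
  obtain ⟨t₀, -, ht₀⟩ := e₀.reach hp.1
  constructor
  · rintro ⟨k, hk⟩
    have run : ∀ m k σ, J k σ → G (k + m) = 0 → ∃ σ', Exec lp σ σ' := by
      intro m
      induction m with
      | zero => exact fun k σ hJ h => ⟨σ, .loopStop (hJ.2.trans h)⟩
      | succ m ih =>
        intro k σ hJ h
        by_cases hz : σ (n + 1) = 0
        · exact ⟨σ, .loopStop hz⟩
        · obtain ⟨σ₁, e₁, hJ₁⟩ := body k σ hJ (σ (n + 1) - 1)
          obtain ⟨σ₂, e₂⟩ := ih (k + 1) σ₁ hJ₁ (by rwa [Nat.add_right_comm, Nat.add_assoc])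
          exact ⟨σ₂, .loopStep (show σ (n + 1) = σ (n + 1) - 1 + 1 by omega) e₁ e₂⟩
    obtain ⟨σ₁, e₁⟩ := run k 0 σ₀ hJ₀ (by simpa [G] using hk)
    obtain ⟨t, -, ht⟩ := (Exec.seq e₀ e₁).reach hp
    exact ⟨t, by rw [ht]⟩
  · rintro ⟨T, hT⟩
    by_contra hne
    have hpos : ∀ k, G k ≠ 0 := fun k h => hne ⟨k, h⟩
    -- the loop head is visited arbitrarily late
    have visit : ∀ m, ∃ t k σ, m ≤ t ∧ J k σ ∧
        (NInstr.step p.code)^[t] (0, Cmd.initReg a) = (0 + g0.size, σ) := by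
      intro m
      induction m with
      | zero => exact ⟨t₀, 0, σ₀, Nat.zero_le _, hJ₀, ht₀⟩
      | succ m ih =>
        obtain ⟨t, k, σ, hmt, hJ, ht⟩ := ih
        have hz : σ (n + 1) ≠ 0 := by rw [hJ.2]; exact hpos k
        obtain ⟨σ₁, e₁, hJ₁⟩ := body k σ hJ (σ (n + 1) - 1)
        obtain ⟨u, hu, hu'⟩ := e₁.reach hlp.2
        refine ⟨u + (t + 1), k + 1, σ₁, by omega, hJ₁, ?_⟩
        rw [iterate_add_apply, iterate_succ_apply', ht, NInstr.step_dec_pos hlp.1 hz, hu']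
    obtain ⟨t, k, σ, hTt, -, ht⟩ := visit T
    obtain ⟨d, rfl⟩ := Nat.exists_eq_add_of_le hTt
    rw [Nat.add_comm T d, iterate_add_apply,
      show (NInstr.step p.code)^[T] (0, Cmd.initReg a) =
        (p.size, ((NInstr.step p.code)^[T] (0, Cmd.initReg a)).2) from Prod.ext hT rfl,
      Cmd.iterate_exit] at ht
    have h := congrArg Prod.fst ht
    have := lp.size_pos
    simp only [p, Cmd.size] at h
    omega

end Vale.Agent.P345
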