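import Mathlib

/-!
# P345: a Diophantine representation of every r.e. set with logarithmically few solutions

Interfaces between the three steps: r.e. set -> register machine -> single-fold exponential
system -> polynomial with at most `log₂ H / E` solutions in `[0, H]^m`.
-/

open MvPolynomial

namespace Vale.Agent.P345

/-- An instruction: increment, decrement-or-branch, halt. -/
inductive Instr (R L : ℕ) where
  | inc (r : Fin R) (next : Fin L)
  | dec (r : Fin R) (ifPos ifZero : Fin L)
  | halt
deriving DecidableEq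

/-- A register machine whose first `n` registers hold the input. -/
structure Program (n : ℕ) where
  extra : ℕ
  labels : ℕ
  start : Fin labels
  code : Fin labels → Instr (n + extra) labels

namespace Program

variable {n : ℕ} (P : Program n)

/-- Configurations: a label and the register contents. -/
abbrev Config : Type := Fin P.labels × (Fin (n + P.extra) → ℕ)

/-- One step; halting configurations are fixed. -/
def step (c : P.Config) : P.Config :=
  match P.code c.1 with
  | .inc r l => (l, Function.update c.2 r (c.2 r + 1))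
  | .dec r p z => if c.2 r = 0 then (z, c.2) else (p, Function.update c.2 r (c.2 r - 1))
  | .halt => c

/-- The initial configuration. -/
def init (a : Fin n → ℕ) : P.Config := (P.start, Fin.append a 0)

/-- The configuration after `t` steps. -/
def run (a : Fin n → ℕ) (t : ℕ) : P.Config := P.step^[t] (P.init a)

/-- The machine halts on `a` exactly at time `T`. -/
def HaltsAt (a : Fin n → ℕ) (T : ℕ) : Prop :=
  P.code (P.run a T).1 = .halt ∧ ∀ t < T, P.code (P.run a t).1 ≠ .halt

end Program

/-- Finitely many polynomial equations and equations `z = (b + 1) ^ e` between variables. -/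
structure ExpSystem (α : Type) where
  W : Type
  fintype : Fintype W
  eqs : List (MvPolynomial (α ⊕ W) ℤ)
  exps : List ((α ⊕ W) × (α ⊕ W) × (α ⊕ W))

/-- `w` solves the system at the parameters `a`. -/
def ExpSystem.Sol {α : Type} (E : ExpSystem α) (a : α → ℕ) (w : E.W → ℕ) : Prop :=
  (∀ p ∈ E.eqs, eval (fun i => ((Sum.elim a w i : ℕ) : ℤ)) p = 0) ∧
    ∀ x ∈ E.exps, Sum.elim a w x.2.2 = (Sum.elim a w x.1 + 1) ^ Sum.elim a w x.2.1

/-- At most one solution for all parameters. -/
def ExpSystem.SingleFold {α : Type} (E : ExpSystem α) : Prop :=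
  ∀ a w w', E.Sol a w → E.Sol a w' → w = w'

/-- A Diophantine representation with at most `log₂ H / E` solutions in the box `[0, H]^m`. -/
def HasLogFold {n : ℕ} (S : Set (Fin n → ℕ)) (E : ℕ) : Prop :=
  ∃ (m : ℕ) (P : MvPolynomial (Fin n ⊕ Fin m) ℤ),
    (∀ a : Fin n → ℕ, a ∈ S ↔
      ∃ w : Fin m → ℕ, eval (fun i => ((Sum.elim a w i : ℕ) : ℤ)) P = 0) ∧
    ∀ (a : Fin n → ℕ) (H : ℕ), E * Set.ncard {w : Fin m → ℕ | (∀ i, w i ≤ H) ∧
      eval (fun i => ((Sum.elim a w i : ℕ) : ℤ)) P = 0} ≤ Nat.log 2 H

/-- Step 1 (Compile): r.e. sets are halting sets of register machines. -/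
def CompileSpec : Prop :=
  ∀ (n : ℕ) (S : (Fin n → ℕ) → Prop), REPred S →
    ∃ P : Program n, ∀ a, S a ↔ ∃ T, P.HaltsAt a T

/-- Step 2 (Encode): halting is single-fold exponential Diophantine. -/
def EncodeSpec : Prop :=
  ∀ (n : ℕ) (P : Program n), ∃ E : ExpSystem (Fin n),
    (∀ a, (∃ T, P.HaltsAt a T) ↔ ∃ w, E.Sol a w) ∧ E.SingleFold

/-- Step 3 (Pell): a single-fold exponential system gives a log-fold polynomial. -/
def PellSpec : Prop :=
  ∀ (n : ℕ) (E : ExpSystem (Fin n)), E.SingleFold →
    ∀ k : ℕ, HasLogFold {a | ∃ w, E.Sol a w} k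

/-- The glue. -/
theorem logFold_of_specs (h1 : CompileSpec) (h2 : EncodeSpec) (h3 : PellSpec) {n : ℕ}
    (S : Set (Fin n → ℕ)) (hS : REPred fun a => a ∈ S) (k : ℕ) : HasLogFold S k := by
  obtain ⟨P, hP⟩ := h1 n _ hS
  obtain ⟨E, hE, hsf⟩ := h2 n P
  have e : {a | ∃ w, E.Sol a w} = S := Set.ext fun a => ((hP a).trans (hE a)).symm
  exact e ▸ h3 n E hsf k

end Vale.Agent.P345
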