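import Vale.Agent.P345.Encode.Correct

/-!
# P345 step 2 (Encode): halting is single-fold exponential Diophantine

The history of a halting run is stored in columns of digits in base `2 ^ (h + 1)`, where `h`
is determined by the input and the halting time; the conditions on the columns are linear
equations and bit-mask relations, and the latter are parities of binomial coefficients.
-/

namespace Vale.Agent.P345

open Encode

theorem Program.haltsAt_unique {n : ℕ} {P : Program n} {a : Fin n → ℕ} {T T' : ℕ}
    (h : P.HaltsAt a T) (h' : P.HaltsAt a T') : T = T' := by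
  rcases lt_trichotomy T T' with hlt | heq | hlt
  · exact absurd h.1 (h'.2 T hlt)
  · exact heq
  · exact absurd h'.1 (h.2 T' hlt)

theorem encode : EncodeSpec := by
  intro n P
  have hsf : SF fun a : Fin n → ℕ => ∃ T, P.HaltsAt a T := by
    refine ((sf_sys P).hide fun a v v' hv hv' => ?_).congr fun a =>
      ⟨fun ⟨v, hv⟩ => ⟨_, (sound P hv).1⟩, fun ⟨T, hT⟩ => ⟨can P a T (P.run a), complete P hT⟩⟩
    obtain ⟨h1, e1⟩ := sound P hv
    obtain ⟨h2, e2⟩ := sound P hv'
    rw [Program.haltsAt_unique h1 h2] at e1
    exact e1.trans e2.symm
  exact hsf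

end Vale.Agent.P345
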