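import Vale.Agent.P345.Defs
import Vale.Agent.P345.Pell.Count

/-!
# P345: a single-fold exponential system gives a log-fold polynomial
-/

open MvPolynomial Pell

namespace Vale.Agent.P345

section Build

variable {n : ℕ} (E : ExpSystem (Fin n)) (k : ℕ)

/-- All variables of the final polynomial apart from the parameters. -/
abbrev FinalVar : Type := E.W ⊕ (MasterVar ⊕ (Fin E.exps.length × PowVar))

variable {R : Type*} [CommSemiring R] (f : Fin n ⊕ E.W → R)

/-- The master parameter: a polynomial in the arguments of the exponential equations. -/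
def masterN : R :=
  4 * (k : R) + 2 + (E.exps.map fun x => 4 * (f x.2.1 + f x.1 + 3) ^ 2).sum

/-- The equations replacing the exponential ones. -/
def pinEqs (g : MasterVar → R) (h : Fin E.exps.length → PowVar → R) : List (R × R) :=
  masterEqs (masterN E k f) g ++
    (List.finRange E.exps.length).flatMap fun i =>
      powEqs (masterN E k f) (g .Y) (f (E.exps.get i).1 + 1) (f (E.exps.get i).2.1)
        (f (E.exps.get i).2.2) (h i)

variable {S : Type*} [CommSemiring S] (φ : R →+* S)

theorem masterN_map : masterN E k (fun i => φ (f i)) = φ (masterN E k f) := by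
  simp [masterN, map_add, map_mul, map_ofNat, map_list_sum, List.map_map, Function.comp_def]

theorem pinEqs_map (g : MasterVar → R) (h : Fin E.exps.length → PowVar → R) :
    pinEqs E k (fun i => φ (f i)) (fun i => φ (g i)) (fun a b => φ (h a b)) =
      (pinEqs E k f g h).map fun e => (φ e.1, φ e.2) := by
  simp only [pinEqs, masterN_map, List.map_append, List.map_flatMap, ← masterEqs_map,
    ← powEqs_map, map_add, map_one]

theorem allEq_pinEqs {N : R} (g : MasterVar → R) (h : Fin E.exps.length → PowVar → R)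
    (hN : masterN E k f = N) :
    AllEq (pinEqs E k f g h) ↔ AllEq (masterEqs N g) ∧ ∀ i, AllEq (powEqs N (g .Y)
      (f (E.exps.get i).1 + 1) (f (E.exps.get i).2.1) (f (E.exps.get i).2.2) (h i)) := by
  subst hN
  constructor
  · intro H
    exact ⟨fun e he => H e (List.mem_append_left _ he), fun i e he =>
      H e (List.mem_append_right _ (List.mem_flatMap.2 ⟨i, List.mem_finRange i, he⟩))⟩
  · rintro ⟨H1, H2⟩ e he
    rcases List.mem_append.1 he with he | he
    · exact H1 e he
    · obtain ⟨i, -, hi⟩ := List.mem_flatMap.1 he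
      exact H2 i e hi

end Build

section Final

variable {n : ℕ} (E : ExpSystem (Fin n)) (k : ℕ)

/-- The embedding of the variables of the system. -/
abbrev embed : Fin n ⊕ E.W → Fin n ⊕ FinalVar E := Sum.map id Sum.inl

/-- The final polynomial. -/
noncomputable def finalPoly : MvPolynomial (Fin n ⊕ FinalVar E) ℤ :=
  (E.eqs.map fun p => rename (embed E) p ^ 2).sum +
    ((pinEqs E k (fun i => X (embed E i)) (fun i => X (.inr (.inr (.inl i))))
      (fun a b => X (.inr (.inr (.inr (a, b)))))).map fun e => (e.1 - e.2) ^ 2).sum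

theorem list_sum_sq_eq_zero {ι : Type*} (f : ι → ℤ) :
    ∀ l : List ι, ((l.map fun x => f x ^ 2).sum = 0 ↔ ∀ x ∈ l, f x = 0) ∧
      0 ≤ (l.map fun x => f x ^ 2).sum
  | [] => by simp
  | a :: l => by
    obtain ⟨h1, h2⟩ := list_sum_sq_eq_zero f l
    have h3 := sq_nonneg (f a)
    simp only [List.map_cons, List.sum_cons, List.forall_mem_cons, ← h1]
    exact ⟨⟨fun h => ⟨by simpa using (show f a ^ 2 = 0 by omega), by omega⟩,
      fun ⟨a0, b0⟩ => by simp [a0, b0]⟩, by omega⟩

/-- The witnesses of the master certificate in a final assignment. -/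
def masterPart (w : FinalVar E → ℕ) : MasterVar → ℕ := fun i => w (.inr (.inl i))

/-- The witnesses of the system in a final assignment. -/
def sysPart (w : FinalVar E → ℕ) : E.W → ℕ := fun i => w (.inl i)

/-- The witnesses of one exponential equation in a final assignment. -/
def powPart (w : FinalVar E → ℕ) (a : Fin E.exps.length) : PowVar → ℕ :=
  fun b => w (.inr (.inr (a, b)))

theorem eval_finalPoly (a : Fin n → ℕ) (w : FinalVar E → ℕ) :
    eval (fun i => ((Sum.elim a w i : ℕ) : ℤ)) (finalPoly E k) = 0 ↔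
      (∀ p ∈ E.eqs, eval (fun i => ((Sum.elim a (sysPart E w) i : ℕ) : ℤ)) p = 0) ∧
        AllEq (pinEqs E k (Sum.elim a (sysPart E w)) (masterPart E w) (powPart E w)) := by
  set φ := eval (fun i => ((Sum.elim a w i : ℕ) : ℤ))
  have hf : (fun i => φ (X (embed E i))) =
      fun i => Nat.castRingHom ℤ (Sum.elim a (sysPart E w) i) := by
    funext i; cases i <;> simp [φ, sysPart]
  have hg : (fun i => φ (X (.inr (.inr (.inl i))))) =
      fun i => Nat.castRingHom ℤ (masterPart E w i) := by
    funext i; simp [φ, masterPart]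
  have hh : (fun x y => φ (X (.inr (.inr (.inr (x, y)))))) =
      fun x y => Nat.castRingHom ℤ (powPart E w x y) := by
    funext i j; simp [φ, powPart]
  have hren : ∀ p : MvPolynomial (Fin n ⊕ E.W) ℤ, φ (rename (embed E) p) =
      eval (fun i => ((Sum.elim a (sysPart E w) i : ℕ) : ℤ)) p := fun p => by
    simp only [φ, eval_rename]
    congr 2
    funext i; cases i <;> simp [sysPart]
  have key := pinEqs_map E k (fun i => X (embed E i)) φ (fun i => X (.inr (.inr (.inl i))))
    (fun a b => X (.inr (.inr (.inr (a, b)))))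
  rw [hf, hg, hh, pinEqs_map] at key
  have hpin : φ (((pinEqs E k (fun i => X (embed E i)) (fun i => X (.inr (.inr (.inl i))))
      (fun a b => X (.inr (.inr (.inr (a, b)))))).map fun e => (e.1 - e.2) ^ 2).sum) =
      ((pinEqs E k (Sum.elim a (sysPart E w)) (masterPart E w) (powPart E w)).map
        fun e => ((e.1 : ℤ) - e.2) ^ 2).sum := by
    have := congrArg (fun l => (l.map fun e : ℤ × ℤ => (e.1 - e.2) ^ 2).sum) key
    simp only [List.map_map, Function.comp_def] at this
    rw [map_list_sum, List.map_map]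
    simpa [Function.comp_def] using this.symm
  have hsys : φ ((E.eqs.map fun p => rename (embed E) p ^ 2).sum) = (E.eqs.map fun p =>
      eval (fun i => ((Sum.elim a (sysPart E w) i : ℕ) : ℤ)) p ^ 2).sum := by
    rw [map_list_sum, List.map_map]
    simp [Function.comp_def, hren]
  rw [finalPoly, map_add, hsys, hpin]
  obtain ⟨s1, s2⟩ := list_sum_sq_eq_zero
    (fun p => eval (fun i => ((Sum.elim a (sysPart E w) i : ℕ) : ℤ)) p) E.eqs
  obtain ⟨t1, t2⟩ := list_sum_sq_eq_zero (fun e : ℕ × ℕ => ((e.1 : ℤ) - e.2))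
    (pinEqs E k (Sum.elim a (sysPart E w)) (masterPart E w) (powPart E w))
  rw [← s1]
  have : AllEq (pinEqs E k (Sum.elim a (sysPart E w)) (masterPart E w) (powPart E w)) ↔
      ∀ e ∈ pinEqs E k (Sum.elim a (sysPart E w)) (masterPart E w) (powPart E w),
        ((e.1 : ℤ) - e.2) = 0 :=
    forall₂_congr fun e _ => by rw [sub_eq_zero, Nat.cast_inj]
  rw [this, ← t1]
  omega

theorem term_le_masterN (f : Fin n ⊕ E.W → ℕ) (i : Fin E.exps.length) :
    4 * (f (E.exps.get i).2.1 + (f (E.exps.get i).1 + 1) + 2) ^ 2 ≤ masterN E k f := by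
  refine le_add_left (le_trans ?_ (List.single_le_sum (fun x _ => Nat.zero_le x) _
    (List.mem_map.2 ⟨E.exps.get i, List.get_mem E.exps i, rfl⟩)))
  exact le_of_eq (by ring)

theorem exists_final {a : Fin n → ℕ} {w0 : E.W → ℕ} (h : E.Sol a w0) :
    ∃ w : FinalVar E → ℕ, eval (fun i => ((Sum.elim a w i : ℕ) : ℤ)) (finalPoly E k) = 0 := by
  set f := Sum.elim a w0
  set N := masterN E k f with hNdef
  have hN : 2 ≤ N := le_add_right (Nat.le_add_left 2 _)
  obtain ⟨g, hY, hg⟩ := exists_master (show 1 < N + 2 by omega) hN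
  choose v hv using fun i : Fin E.exps.length => exists_pow (show 1 < N + 2 by omega) hY
    (Nat.le_add_left 1 (f (E.exps.get i).1)) (term_le_masterN E k f i)
    (h.2 _ (List.get_mem E.exps i))
  refine ⟨Sum.elim w0 (Sum.elim g fun p => v p.1 p.2), (eval_finalPoly E k a _).2 ⟨h.1, ?_⟩⟩
  exact (allEq_pinEqs E k f g v hNdef.symm).2 ⟨hg, hv⟩

theorem of_final {a : Fin n → ℕ} {w : FinalVar E → ℕ}
    (h : eval (fun i => ((Sum.elim a w i : ℕ) : ℤ)) (finalPoly E k) = 0) :
    E.Sol a (sysPart E w) ∧ ∀ N, masterN E k (Sum.elim a (sysPart E w)) = N →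
      2 ≤ N ∧ AllEq (masterEqs N (masterPart E w)) ∧
      ∀ w', sysPart E w' = sysPart E w → masterPart E w' = masterPart E w →
        eval (fun i => ((Sum.elim a w' i : ℕ) : ℤ)) (finalPoly E k) = 0 → w' = w := by
  obtain ⟨h1, h2⟩ := (eval_finalPoly E k a w).1 h
  set f := Sum.elim a (sysPart E w)
  obtain ⟨hm, hp⟩ := (allEq_pinEqs E k f _ _ rfl).1 h2
  have hN : 2 ≤ masterN E k f := le_add_right (Nat.le_add_left 2 _)
  obtain ⟨j, i, hinfo⟩ := masterInfo_of_eqs hN hm
  obtain ⟨hN1, hY, -⟩ := hinfo.Y_eq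
  refine ⟨⟨h1, fun x hx => ?_⟩, fun N e => ?_⟩
  · obtain ⟨i, rfl⟩ := List.get_of_mem hx
    exact (pow_eq_of_cert hN1 hY (Nat.le_add_left 1 _) (term_le_masterN E k f i) (hp i)).1
  subst e
  refine ⟨hN, hm, fun w' es em hw' => ?_⟩
  obtain ⟨-, h2'⟩ := (eval_finalPoly E k a w').1 hw'
  rw [es, em] at h2'
  have hp' := ((allEq_pinEqs E k f _ _ rfl).1 h2').2
  funext z
  rcases z with z | z | ⟨i, z⟩
  · exact congrFun es z
  · exact congrFun em z
  · exact congrFun ((pow_eq_of_cert hN1 hY (Nat.le_add_left 1 _) (term_le_masterN E k f i)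
      (hp i)).2 _ (hp' i)) z

/-- Step 3. -/
theorem pell : PellSpec := by
  intro n E hsf k
  have := E.fintype
  let e := Fintype.equivFin (FinalVar E)
  refine ⟨Fintype.card (FinalVar E), rename (Sum.map id e) (finalPoly E k), fun a => ?_,
    fun a H => ?_⟩
  all_goals
    have he : ∀ w : Fin (Fintype.card (FinalVar E)) → ℕ,
        eval (fun i => ((Sum.elim a w i : ℕ) : ℤ)) (rename (Sum.map id e) (finalPoly E k)) =
          eval (fun i => ((Sum.elim a (w ∘ e) i : ℕ) : ℤ)) (finalPoly E k) := fun w => by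
      rw [eval_rename]; congr 2; funext i; cases i <;> simp
  · constructor
    · rintro ⟨w0, hw0⟩
      obtain ⟨w, hw⟩ := exists_final E k hw0
      exact ⟨w ∘ e.symm, by rw [he, Function.comp_assoc, Equiv.symm_comp_self]; exact hw⟩
    · rintro ⟨w, hw⟩
      exact ⟨_, (of_final E k (by rw [← he]; exact hw)).1⟩
  · by_cases hex : ∃ w0, E.Sol a w0
    · obtain ⟨w0, hw0⟩ := hex
      set N := masterN E k (Sum.elim a w0) with hNdef
      have hsol : ∀ w : Fin (Fintype.card (FinalVar E)) → ℕ,
          eval (fun i => ((Sum.elim a w i : ℕ) : ℤ)) (rename (Sum.map id e) (finalPoly E k)) = 0 →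
            sysPart E (w ∘ e) = w0 := fun w hw =>
        hsf a _ _ (of_final E k (by rw [← he]; exact hw)).1 hw0
      have hN : 2 ≤ N := le_add_right (Nat.le_add_left 2 _)
      refine card_master_le hN (le_add_right (Nat.le_add_right _ _)) _
        (fun w => masterPart E (w ∘ e)) (fun w hw w' hw' heq => ?_) fun w hw => ?_
      · have h1 := (of_final E k (w := w ∘ e) (by rw [← he]; exact hw.2)).2 _ rfl
        have := h1.2.2 (w' ∘ e) ((hsol _ hw'.2).trans (hsol _ hw.2).symm) heq.symm
          (by rw [← he]; exact hw'.2)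
        funext z
        simpa using (congrFun this (e.symm z)).symm
      · have h1 := (of_final E k (w := w ∘ e) (by rw [← he]; exact hw.2)).2 N
          (by rw [hsol _ hw.2])
        exact ⟨h1.2.1, hw.1 _, hw.1 _⟩
    · have : {w : Fin (Fintype.card (FinalVar E)) → ℕ | (∀ i, w i ≤ H) ∧
          eval (fun i => ((Sum.elim a w i : ℕ) : ℤ))
            (rename (Sum.map id e) (finalPoly E k)) = 0} = ∅ :=
        Set.eq_empty_of_forall_notMem fun w hw =>
          hex ⟨_, (of_final E k (by rw [← he]; exact hw.2)).1⟩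
      simp [this]

end Final

end Vale.Agent.P345
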